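import Vale.Agent.P262.Upper

open scoped BigOperators

namespace Vale.Agent.Results.P262.SteinitzLogSq

open Vale.Agent.P262

theorem result (d : ℕ) (hd : 1 ≤ d) :
    (∀ (N : ℕ) (v : Fin N → EuclideanSpace ℝ (Fin d)), (∀ i, ‖v i‖ ≤ 1) → ∑ i, v i = 0 →
      ∃ π : Equiv.Perm (Fin N), ∀ k ≤ N,
        ‖∑ i ∈ Finset.univ.filter (fun i : Fin N => i.val < k), v (π i)‖ ≤
          2000 * Real.sqrt d * (Real.log ((d : ℝ) + 1)) ^ 2) ∧
    steinitz d ≤ ENNReal.ofReal (2000 * Real.sqrt d * (Real.log ((d : ℝ) + 1)) ^ 2) := by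
  have h : ∀ (N : ℕ) (v : Fin N → EuclideanSpace ℝ (Fin d)), (∀ i, ‖v i‖ ≤ 1) → ∑ i, v i = 0 →
      ∃ π : Equiv.Perm (Fin N), ∀ k ≤ N,
        ‖∑ i ∈ Finset.univ.filter (fun i : Fin N => i.val < k), v (π i)‖ ≤
          2000 * Real.sqrt d * (Real.log ((d : ℝ) + 1)) ^ 2 := by
    intro N v hv h0
    obtain ⟨L, hnd, hLu, hL⟩ := order (κ := Fin d) (by simpa using hd) v hv h0
    obtain ⟨π, hπ⟩ := list_to_perm L hnd hLu
    refine ⟨π, fun k hk => ?_⟩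
    rw [hπ v k hk]
    have := hL (L.take k) (List.take_prefix k L)
    simpa using this
  exact ⟨h, steinitz_le h⟩

end Vale.Agent.Results.P262.SteinitzLogSq
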