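import Vale.Agent.P262.Upper
import Vale.Agent.P262.LowerB
import Vale.Agent.P262F.R11

open scoped BigOperators

namespace Vale.Agent.Results.P262.SteinitzSqrt

open Vale.Agent.P262

theorem result : ∃ C : ℝ, 0 < C ∧ ∀ d : ℕ, 1 ≤ d →
    (∀ (N : ℕ) (v : Fin N → EuclideanSpace ℝ (Fin d)), (∀ i, ‖v i‖ ≤ 1) → ∑ i, v i = 0 →
      ∃ π : Equiv.Perm (Fin N), ∀ k ≤ N,
        ‖∑ i ∈ Finset.univ.filter (fun i : Fin N => i.val < k), v (π i)‖ ≤ C * Real.sqrt (d : ℝ)) ∧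
    ENNReal.ofReal (1 / 3 * Real.sqrt (d : ℝ)) ≤ steinitz d ∧
    steinitz d ≤ ENNReal.ofReal (C * Real.sqrt (d : ℝ)) := by
  obtain ⟨C, hC, h⟩ := P262F.perm_bound_full
  exact ⟨C, hC, fun d hd => ⟨fun N v hv h0 => h d N v hv h0, steinitz_ge_third d hd,
    steinitz_le (fun N v hv h0 => h d N v hv h0)⟩⟩

end Vale.Agent.Results.P262.SteinitzSqrt
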